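import Mathlib
import Vale.Agent.Lib.P137.helper41.Defs

/-!
# P137: the tail integral of `1 / (|B(0,|x|)| |x|)` over `|x| > a` by dyadic shells
-/

namespace Vale.Agent.Lib.P137.H36

open Vale.Agent.Lib.P137 MeasureTheory Metric
open scoped ENNReal

/-- The volume of a centred ball of positive radius. -/
theorem vol_ball {d : ℕ} {r : ℝ} (hr : 0 < r) :
    volume (ball (0 : E d) r) = ENNReal.ofReal r ^ d * volume (ball (0 : E d) 1) := by
  rw [Measure.addHaar_ball_of_pos volume (0 : E d) hr, finrank_euclideanSpace_fin,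
    ENNReal.ofReal_pow hr.le]

/-- One dyadic shell `r ≤ |x| < 2 r`. -/
theorem shell_le {d : ℕ} {r : ℝ} (hr : 0 < r) :
    ∫⁻ x in {x : E d | r ≤ ‖x‖ ∧ ‖x‖ < 2 * r},
        (volume (ball (0 : E d) ‖x‖))⁻¹ / ENNReal.ofReal ‖x‖ ≤ 2 ^ d / ENNReal.ofReal r := by
  have hR0 : 0 < 2 * r := by positivity
  have hκ0 : volume (ball (0 : E d) 1) ≠ 0 := (measure_ball_pos volume (0 : E d) one_pos).ne'
  have hκt : volume (ball (0 : E d) 1) ≠ ⊤ := measure_ball_lt_top.ne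
  have hA0 : ENNReal.ofReal r ≠ 0 := (ENNReal.ofReal_pos.mpr hr).ne'
  have hAt : ENNReal.ofReal r ≠ ⊤ := ENNReal.ofReal_ne_top
  have hW0 : ENNReal.ofReal r ^ d * volume (ball (0 : E d) 1) ≠ 0 :=
    mul_ne_zero (pow_ne_zero d hA0) hκ0
  have hWt : ENNReal.ofReal r ^ d * volume (ball (0 : E d) 1) ≠ ⊤ :=
    ENNReal.mul_ne_top (ENNReal.pow_ne_top hAt) hκt
  have h2 : ENNReal.ofReal (2 * r) = 2 * ENNReal.ofReal r := by
    rw [ENNReal.ofReal_mul (by norm_num), ENNReal.ofReal_ofNat]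
  have hmeas : MeasurableSet {x : E d | r ≤ ‖x‖ ∧ ‖x‖ < 2 * r} :=
    (measurableSet_le measurable_const measurable_norm).inter
      (measurableSet_lt measurable_norm measurable_const)
  have hsub : {x : E d | r ≤ ‖x‖ ∧ ‖x‖ < 2 * r} ⊆ ball (0 : E d) (2 * r) := by
    intro x hx
    rw [mem_ball_zero_iff]
    exact hx.2
  calc ∫⁻ x in {x : E d | r ≤ ‖x‖ ∧ ‖x‖ < 2 * r},
        (volume (ball (0 : E d) ‖x‖))⁻¹ / ENNReal.ofReal ‖x‖
      ≤ ∫⁻ _x in {x : E d | r ≤ ‖x‖ ∧ ‖x‖ < 2 * r},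
        (volume (ball (0 : E d) r))⁻¹ / ENNReal.ofReal r := by
        refine setLIntegral_mono' hmeas fun x hx => ?_
        refine ENNReal.div_le_div ?_ (ENNReal.ofReal_le_ofReal hx.1)
        exact ENNReal.inv_le_inv.mpr (measure_mono (ball_subset_ball hx.1))
    _ = (volume (ball (0 : E d) r))⁻¹ / ENNReal.ofReal r *
          volume {x : E d | r ≤ ‖x‖ ∧ ‖x‖ < 2 * r} := by
        rw [setLIntegral_const]
    _ ≤ (volume (ball (0 : E d) r))⁻¹ / ENNReal.ofReal r * volume (ball (0 : E d) (2 * r)) :=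
        mul_le_mul_right (measure_mono hsub) _
    _ = 2 ^ d / ENNReal.ofReal r := by
        rw [vol_ball hr, vol_ball hR0, h2, mul_pow, div_eq_mul_inv, div_eq_mul_inv]
        calc (ENNReal.ofReal r ^ d * volume (ball (0 : E d) 1))⁻¹ * (ENNReal.ofReal r)⁻¹ *
              (2 ^ d * ENNReal.ofReal r ^ d * volume (ball (0 : E d) 1))
            = 2 ^ d * (ENNReal.ofReal r)⁻¹ *
                ((ENNReal.ofReal r ^ d * volume (ball (0 : E d) 1))⁻¹ *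
                  (ENNReal.ofReal r ^ d * volume (ball (0 : E d) 1))) := by ring
          _ = 2 ^ d * (ENNReal.ofReal r)⁻¹ := by
              rw [ENNReal.inv_mul_cancel hW0 hWt, mul_one]

/-- The tail integral of `1 / (|B(0,|x|)| |x|)` over `|x| > a` is at most `2^(d+1) / a`. -/
theorem lintegral_norm_gt_le {d : ℕ} (hd : 1 ≤ d) {a : ℝ} (ha : 0 < a) :
    ∫⁻ x in {x : E d | a < ‖x‖}, (volume (ball (0 : E d) ‖x‖))⁻¹ / ENNReal.ofReal ‖x‖ ≤
      2 ^ (d + 1) / ENNReal.ofReal a := by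
  have _hd := hd
  have hcover : {x : E d | a < ‖x‖} ⊆
      ⋃ k : ℕ, {x : E d | 2 ^ k * a ≤ ‖x‖ ∧ ‖x‖ < 2 * (2 ^ k * a)} := by
    intro x hx
    have hx' : a < ‖x‖ := hx
    have h1 : 1 ≤ ‖x‖ / a := by
      rw [le_div_iff₀ ha]
      linarith
    obtain ⟨n, hn1, hn2⟩ := exists_nat_pow_near h1 (by norm_num : (1 : ℝ) < 2)
    refine Set.mem_iUnion.mpr ⟨n, ?_, ?_⟩
    · exact (le_div_iff₀ ha).mp hn1
    · have h3 := (div_lt_iff₀ ha).mp hn2
      rw [pow_succ] at h3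
      linarith
  have hterm : ∀ k : ℕ, ∫⁻ x in {x : E d | 2 ^ k * a ≤ ‖x‖ ∧ ‖x‖ < 2 * (2 ^ k * a)},
      (volume (ball (0 : E d) ‖x‖))⁻¹ / ENNReal.ofReal ‖x‖ ≤
        2 ^ d / ENNReal.ofReal a * (2⁻¹ : ℝ≥0∞) ^ k := by
    intro k
    refine le_trans (shell_le (by positivity)) (le_of_eq ?_)
    rw [ENNReal.ofReal_mul (by positivity), ENNReal.ofReal_pow (by norm_num),
      ENNReal.ofReal_ofNat, div_eq_mul_inv, div_eq_mul_inv,
      ENNReal.mul_inv (Or.inl (pow_ne_zero k (by norm_num)))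
        (Or.inl (ENNReal.pow_ne_top (by norm_num))), ENNReal.inv_pow]
    ring
  calc ∫⁻ x in {x : E d | a < ‖x‖}, (volume (ball (0 : E d) ‖x‖))⁻¹ / ENNReal.ofReal ‖x‖
      ≤ ∫⁻ x in ⋃ k : ℕ, {x : E d | 2 ^ k * a ≤ ‖x‖ ∧ ‖x‖ < 2 * (2 ^ k * a)},
          (volume (ball (0 : E d) ‖x‖))⁻¹ / ENNReal.ofReal ‖x‖ := lintegral_mono_set hcover
    _ ≤ ∑' k : ℕ, ∫⁻ x in {x : E d | 2 ^ k * a ≤ ‖x‖ ∧ ‖x‖ < 2 * (2 ^ k * a)},
          (volume (ball (0 : E d) ‖x‖))⁻¹ / ENNReal.ofReal ‖x‖ := lintegral_iUnion_le _ _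
    _ ≤ ∑' k : ℕ, 2 ^ d / ENNReal.ofReal a * (2⁻¹ : ℝ≥0∞) ^ k := ENNReal.tsum_le_tsum hterm
    _ = 2 ^ (d + 1) / ENNReal.ofReal a := by
        rw [ENNReal.tsum_mul_left, ENNReal.tsum_geometric, ENNReal.one_sub_inv_two, inv_inv,
          div_eq_mul_inv, div_eq_mul_inv, pow_succ]
        ring

end Vale.Agent.Lib.P137.H36
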